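import Vale.Agent.P193.W4.Common.Facts.Claims

/-!
P193, module W4.A (common layer): bits shown on a tile and on the tile behind it, axis by axis.
-/

noncomputable section

namespace Vale.Agent.P193.W4.Common

variable {C : Cfg} {L : ℕ}

/-- Shown at position `p` of an axis with cut `c`, the guest going back along it or not. -/
def ShownA (p c : ℕ) (e : Bool) : Prop := (p = 0 → e = true) ∧ (c < p → e = false)

instance (p c : ℕ) (e : Bool) : Decidable (ShownA p c e) := by unfold ShownA; infer_instance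

/-- The positions on the axes. -/
def posAt (X Y : ℕ) (Z : Digits C) : Fin 5 → ℕ :=
  ![X, Y, (Z 0).val, (Z 1).val, (Z 2).val]

/-- The cuts of the axes. -/
def cutOf (C : Cfg) (L : ℕ) : Fin 5 → ℕ :=
  ![cutX L, halfY L, base C.k - 2, base C.k - 2, base C.k - 2]

/-- The sizes of the axes. -/
def sizeOf' (C : Cfg) (L : ℕ) : Fin 5 → ℕ :=
  ![H L, H L, base C.k, base C.k, base C.k]

/-- The bits of the parents of two tiles next to each other along the axis `a`. -/
def EBits (first : Bool) (a : Fin 5) (b b' : ℕ → Bits) : Prop :=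
  if first then ∀ k g, g a = false → b' k g = b k (back g a) else b' = b

lemma drop_self (g : Guest) (a : Fin 5) : drop g a a = false := by simp [drop]

lemma drop_ne (g : Guest) {a e : Fin 5} (h : e ≠ a) : drop g a e = g e := by simp [drop, h]

lemma back_drop (g : Guest) {a : Fin 5} (h : g a = true) : back (drop g a) a = g := by
  funext e
  by_cases he : e = a
  · subst he; simp [back, drop, h]
  · simp [back, drop, he]

/-- The rule of the bits of one row or column. -/
theorem bitRule_shown {a : Fin 5} {N c p p' : ℕ} (hc1 : 1 ≤ c) (hc : c + 1 < N)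
    (hp : (p = 0 ∧ p' + 1 = N) ∨ (0 < p ∧ p' + 1 = p))
    {P : Guest → Prop} [DecidablePred P]
    (hP : ∀ g g', (∀ e, e ≠ a → g e = g' e) → (P g ↔ P g'))
    {B B' : Bits} (hB : if p = 0 then ∀ g, g a = false → B' g = B (back g a) else B' = B)
    {first cut dfirst : Bool} (hf : first = decide (p = 0)) (hcu : cut = decide (p' = c))
    (hd : dfirst = decide (p' = 0)) :
    BitRule first cut dfirst a (fun g => if P g ∧ ShownA p c (g a) then B g else false)
      (fun g => if P g ∧ ShownA p' c (g a) then B' g else false) := by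
  subst hf hcu hd
  unfold BitRule
  rcases hp with ⟨rfl, hp'⟩ | ⟨hp0, hp'⟩
  · simp only [if_true] at hB
    simp only [decide_true, if_true]
    intro g
    by_cases hg : g a = true
    · have hPd := hP (drop g a) g fun e he => drop_ne g he
      rw [hg, Bool.true_and, drop_self, hB _ (drop_self g a), back_drop g hg]
      refine if_congr (and_congr hPd.symm ⟨fun _ => ⟨fun h => ?_, fun _ => rfl⟩,
        fun _ => ⟨fun _ => rfl, fun h => absurd h (Nat.not_lt_zero _)⟩⟩) rfl rfl
      omega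
    · rw [Bool.not_eq_true] at hg
      rw [hg, Bool.false_and, if_neg fun h => absurd (h.2.1 rfl) (by simp)]
  · rw [if_neg (by omega)] at hB
    subst hB
    rw [if_neg (by simp; omega)]
    by_cases hcut : p' = c
    · rw [if_pos (by simp [hcut])]
      intro g
      dsimp only
      cases hg : g a
      · rw [Bool.not_false, Bool.true_and]
        refine if_congr (and_congr Iff.rfl ⟨fun _ => ⟨fun h => ?_, fun _ => rfl⟩,
          fun _ => ⟨fun h => ?_, fun _ => rfl⟩⟩) rfl rfl <;> omega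
      · rw [Bool.not_true, Bool.false_and, if_neg fun h => absurd (h.2.2 (by omega)) (by simp)]
    · rw [if_neg (by simp [hcut])]
      by_cases hz : p' = 0
      · rw [if_pos (by simp [hz])]
        intro g hg
        dsimp only
        rw [hg]
        refine if_congr (and_congr Iff.rfl ⟨fun _ => ⟨fun _ => rfl, fun h => ?_⟩,
          fun _ => ⟨fun _ => rfl, fun h => ?_⟩⟩) rfl rfl <;> omega
      · rw [if_neg (by simp [hz])]
        funext g
        refine if_congr (and_congr Iff.rfl (and_congr ?_ ?_)) rfl rfl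
        · exact ⟨fun _ h => absurd h hz, fun _ h => absurd h (by omega)⟩
        · exact imp_congr_left (by omega)

lemma shownH_iff (X Y : ℕ) (Z : Digits C) (g : Guest) :
    ShownH L X Z g ↔ ∀ e, e ≠ 1 → ShownA (posAt X Y Z e) (cutOf C L e) (g e) := by
  have hb := base_ge C.k
  unfold ShownH ShownZ ShownA
  constructor
  · rintro ⟨h0, h1, hz⟩ e he
    fin_cases e <;> simp only [posAt, cutOf] <;> simp at he ⊢
    · exact ⟨h0, h1⟩
    · exact ⟨(hz 0).1, fun h => (hz 0).2 (by have := (Z 0).isLt; omega)⟩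
    · exact ⟨(hz 1).1, fun h => (hz 1).2 (by have := (Z 1).isLt; omega)⟩
    · exact ⟨(hz 2).1, fun h => (hz 2).2 (by have := (Z 2).isLt; omega)⟩
  · intro h
    refine ⟨(h 0 (by decide)).1, (h 0 (by decide)).2, fun i => ?_⟩
    have hi : zAx i ≠ 1 := by fin_cases i <;> decide
    have e1 : posAt X Y Z (zAx i) = (Z i).val := by fin_cases i <;> rfl
    have e2 : cutOf C L (zAx i) = base C.k - 2 := by fin_cases i <;> rfl
    have := h _ hi
    rw [e1, e2] at this
    exact ⟨this.1, fun h' => this.2 (by omega)⟩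

lemma shownV_iff (X Y : ℕ) (Z : Digits C) (g : Guest) :
    ShownV L Y Z g ↔ ∀ e, e ≠ 0 → ShownA (posAt X Y Z e) (cutOf C L e) (g e) := by
  have hb := base_ge C.k
  unfold ShownV ShownZ ShownA
  constructor
  · rintro ⟨h0, h1, hz⟩ e he
    fin_cases e <;> simp only [posAt, cutOf] <;> simp at he ⊢
    · exact ⟨h0, h1⟩
    · exact ⟨(hz 0).1, fun h => (hz 0).2 (by have := (Z 0).isLt; omega)⟩
    · exact ⟨(hz 1).1, fun h => (hz 1).2 (by have := (Z 1).isLt; omega)⟩
    · exact ⟨(hz 2).1, fun h => (hz 2).2 (by have := (Z 2).isLt; omega)⟩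
  · intro h
    refine ⟨(h 1 (by decide)).1, (h 1 (by decide)).2, fun i => ?_⟩
    have hi : zAx i ≠ 0 := by fin_cases i <;> decide
    have e1 : posAt X Y Z (zAx i) = (Z i).val := by fin_cases i <;> rfl
    have e2 : cutOf C L (zAx i) = base C.k - 2 := by fin_cases i <;> rfl
    have := h _ hi
    rw [e1, e2] at this
    exact ⟨this.1, fun h' => this.2 (by omega)⟩

lemma atFirst_iff (X Y : ℕ) (Z : Digits C) (a : Fin 5) :
    atFirst X Y Z a = true ↔ posAt X Y Z a = 0 := by
  fin_cases a <;> exact decide_eq_true_iff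

lemma cut_bounds (hL : L₀ C ≤ L) (a : Fin 5) :
    1 ≤ cutOf C L a ∧ cutOf C L a + 1 < sizeOf' C L a := by
  obtain ⟨h1, h2, h3, h4⟩ := cuts_lt hL
  have := base_ge C.k
  fin_cases a <;> simp [cutOf, sizeOf'] <;> omega

lemma claims_cutAt (hL : L₀ C ≤ L) (τ : ℕ → Bool) (b : ℕ → Bits) (X Y : ℕ) (Z : Digits C)
    (hX : X < H L) (hY : Y < H L) (a : Fin 5) :
    (claims L (child L τ b X Y Z)).cutAt a = true ↔ posAt X Y Z a = cutOf C L a := by
  have := base_ge C.k
  fin_cases a
  · exact claims_cut τ b X Y Z hL hX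
  · exact (claims_halfRow τ b X Y Z hY).trans (halfRow_iff hL)
  all_goals
    simp only [Claims.cutAt, posAt, cutOf, claims_z]
    simp
    refine decide_eq_true_iff.trans ?_
    constructor <;> intro <;> omega

/-- The horizontal bits of neighbours. -/
theorem child_bitRule_h (hL : L₀ C ≤ L) (τ : ℕ → Bool) {b b' : ℕ → Bits} {X Y X' Y' : ℕ}
    {Z Z' : Digits C} (hX : X < H L) (hY : Y < H L) (hX' : X' < H L) (hY' : Y' < H L)
    {a : Fin 5} (ha : a ≠ 1)
    (hne : ∀ e, e ≠ a → posAt X' Y' Z' e = posAt X Y Z e)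
    (hp : (posAt X Y Z a = 0 ∧ posAt X' Y' Z' a + 1 = sizeOf' C L a) ∨
      (0 < posAt X Y Z a ∧ posAt X' Y' Z' a + 1 = posAt X Y Z a))
    (hb : EBits (atFirst X Y Z a) a b b') :
    BitRule ((claims L (child L τ b X Y Z)).firstAt a)
      ((claims L (child L τ b' X' Y' Z')).cutAt a) ((claims L (child L τ b' X' Y' Z')).firstAt a) a
      (child L τ b X Y Z).fin.h (child L τ b' X' Y' Z').fin.h := by
  obtain ⟨hc1, hc⟩ := cut_bounds hL a
  have hYY : Y' = Y := hne 1 (Ne.symm ha)
  subst hYY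
  let P : Guest → Prop := fun g => IsLive C L Y' ∧
    ∀ e, e ≠ 1 → e ≠ a → ShownA (posAt X Y' Z e) (cutOf C L e) (g e)
  have key : ∀ (X₁ : ℕ) (Z₁ : Digits C), X₁ < H L →
      (∀ e, e ≠ a → posAt X₁ Y' Z₁ e = posAt X Y' Z e) → ∀ b₁,
      (child L τ b₁ X₁ Y' Z₁).fin.h = fun g =>
        if P g ∧ ShownA (posAt X₁ Y' Z₁ a) (cutOf C L a) (g a) then b₁ (hi L Y') g else false := by
    intro X₁ Z₁ hX₁ he b₁
    funext g
    rw [child_h τ b₁ X₁ Y' Z₁ hX₁ hY]
    refine if_congr ?_ rfl rfl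
    rw [shownH_iff X₁ Y' Z₁]
    constructor
    · rintro ⟨hl, h⟩
      exact ⟨⟨hl, fun e e1 e2 => he e e2 ▸ h e e1⟩, h a ha⟩
    · rintro ⟨⟨hl, h⟩, ha'⟩
      refine ⟨hl, fun e e1 => ?_⟩
      by_cases e2 : e = a
      · exact e2 ▸ ha'
      · exact (he e e2).symm ▸ h e e1 e2
  rw [key X Z hX (fun _ _ => rfl) b, key X' Z' hX' hne b']
  classical
  refine bitRule_shown hc1 hc hp ?_ ?_ ?_ ?_ ?_
  · intro g g' hgg
    refine and_congr Iff.rfl (forall_congr' fun e => forall_congr' fun _ => forall_congr' fun e2 => ?_)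
    rw [hgg e e2]
  · unfold EBits at hb
    by_cases h0 : posAt X Y' Z a = 0
    · rw [if_pos ((atFirst_iff X Y' Z a).2 h0)] at hb
      rw [if_pos h0]
      exact fun g hg => hb _ g hg
    · rw [if_neg fun h => h0 ((atFirst_iff X Y' Z a).1 h)] at hb
      rw [if_neg h0, hb]
  · rw [Bool.eq_iff_iff, decide_eq_true_iff, claims_first τ b X Y' Z hX hY, atFirst_iff]
  · rw [Bool.eq_iff_iff, decide_eq_true_iff, claims_cutAt hL τ b' X' Y' Z' hX' hY' a]
  · rw [Bool.eq_iff_iff, decide_eq_true_iff, claims_first τ b' X' Y' Z' hX' hY', atFirst_iff]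

/-- The vertical bits of neighbours. -/
theorem child_bitRule_vb (hL : L₀ C ≤ L) (τ : ℕ → Bool) {b b' : ℕ → Bits} {X Y X' Y' : ℕ}
    {Z Z' : Digits C} (hX : X < H L) (hY : Y < H L) (hX' : X' < H L) (hY' : Y' < H L)
    {a : Fin 5} (ha : a ≠ 0)
    (hne : ∀ e, e ≠ a → posAt X' Y' Z' e = posAt X Y Z e)
    (hp : (posAt X Y Z a = 0 ∧ posAt X' Y' Z' a + 1 = sizeOf' C L a) ∨
      (0 < posAt X Y Z a ∧ posAt X' Y' Z' a + 1 = posAt X Y Z a))
    (hb : EBits (atFirst X Y Z a) a b b') :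
    BitRule ((claims L (child L τ b X Y Z)).firstAt a)
      ((claims L (child L τ b' X' Y' Z')).cutAt a) ((claims L (child L τ b' X' Y' Z')).firstAt a) a
      (child L τ b X Y Z).fin.vb (child L τ b' X' Y' Z').fin.vb := by
  obtain ⟨hc1, hc⟩ := cut_bounds hL a
  have hXX : X' = X := hne 0 (Ne.symm ha)
  subst hXX
  let P : Guest → Prop := fun g => (IsBundle L X' ∧ lo L X' / 2 ≤ lastK C L) ∧
    ∀ e, e ≠ 0 → e ≠ a → ShownA (posAt X' Y Z e) (cutOf C L e) (g e)
  have key : ∀ (Y₁ : ℕ) (Z₁ : Digits C), Y₁ < H L →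
      (∀ e, e ≠ a → posAt X' Y₁ Z₁ e = posAt X' Y Z e) → ∀ b₁,
      (child L τ b₁ X' Y₁ Z₁).fin.vb = fun g =>
        if P g ∧ ShownA (posAt X' Y₁ Z₁ a) (cutOf C L a) (g a) then b₁ (lo L X' / 2) g
        else false := by
    intro Y₁ Z₁ hY₁ he b₁
    funext g
    rw [child_vb τ b₁ X' Y₁ Z₁ hX hY₁]
    refine if_congr ?_ rfl rfl
    rw [shownV_iff X' Y₁ Z₁]
    constructor
    · rintro ⟨hl, hk, h⟩
      exact ⟨⟨⟨hl, hk⟩, fun e e1 e2 => he e e2 ▸ h e e1⟩, h a ha⟩
    · rintro ⟨⟨⟨hl, hk⟩, h⟩, ha'⟩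
      refine ⟨hl, hk, fun e e1 => ?_⟩
      by_cases e2 : e = a
      · exact e2 ▸ ha'
      · exact (he e e2).symm ▸ h e e1 e2
  rw [key Y Z hY (fun _ _ => rfl) b, key Y' Z' hY' hne b']
  classical
  refine bitRule_shown hc1 hc hp ?_ ?_ ?_ ?_ ?_
  · intro g g' hgg
    refine and_congr Iff.rfl (forall_congr' fun e => forall_congr' fun _ => forall_congr' fun e2 => ?_)
    rw [hgg e e2]
  · unfold EBits at hb
    by_cases h0 : posAt X' Y Z a = 0
    · rw [if_pos ((atFirst_iff X' Y Z a).2 h0)] at hb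
      rw [if_pos h0]
      exact fun g hg => hb _ g hg
    · rw [if_neg fun h => h0 ((atFirst_iff X' Y Z a).1 h)] at hb
      rw [if_neg h0, hb]
  · rw [Bool.eq_iff_iff, decide_eq_true_iff, claims_first τ b X' Y Z hX hY, atFirst_iff]
  · rw [Bool.eq_iff_iff, decide_eq_true_iff, claims_cutAt hL τ b' X' Y' Z' hX' hY' a]
  · rw [Bool.eq_iff_iff, decide_eq_true_iff, claims_first τ b' X' Y' Z' hX' hY', atFirst_iff]

end Vale.Agent.P193.W4.Common
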