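import Vale.Agent.P193.W4.Common.Facts.Steps

/-!
P193, module W4.A (common layer): the counters of two children above each other.
-/

noncomputable section

namespace Vale.Agent.P193.W4.Common

variable {C : Cfg} {L : ℕ}

/-- The counter of a child follows from that of the child below it. -/
theorem counter_child (hL : L₀ C ≤ L) (τ τ' : ℕ → Bool) (b b' : ℕ → Bits) {X Y : ℕ} (Z Z' : Digits C)
    (hX : X < H L) (hY : Y < H L) :
    CounterNum L (child L τ b X Y Z) (child L τ' b' X (pred' L Y) Z') := by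
  have hM2 := two_le_M hL
  have hA := A_ge C
  have hYB := A_lt_YB C
  have hT := T_pos C
  show (if _ then _ else _)
  rcases pred_cases hY with ⟨h0, -⟩ | ⟨h0, hp⟩
  · subst h0
    rw [if_neg (by simp [child_y τ b X 0 Z hY]), child_u τ b X 0 Z hX hY, if_neg]
    rintro ⟨-, -, h, -⟩
    omega
  obtain ⟨y, rfl⟩ : ∃ y, Y = y + 1 := ⟨Y - 1, by omega⟩
  rw [show pred' L (y + 1) = y by omega]
  have hy : y < H L := by omega
  simp only [Bool.and_eq_true, Bool.not_eq_true', decide_eq_false_iff_not, decide_eq_true_iff,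
    child_y τ b X (y + 1) Z hY, claims_scan τ b X (y + 1) Z hX, claims_wire τ b X (y + 1) Z hY,
    claims_yhC τ b X (y + 1) Z hY, claims_yhMod τ b X (y + 1) Z hY,
    child_u τ b X (y + 1) Z hX hY, child_u τ' b' X y Z' hX hy]
  obtain ⟨-, hr1, hr2, hr3⟩ := rows_succ hL y
  have hle : rowIdx L (y + 1) ≤ hi L (y + 1) := Nat.div_le_div_right (Nat.sub_le _ _)
  by_cases hg : (IsCol L X 3 ∧ lo L X = 0) ∧ A C ≤ hi L (y + 1)
  swap
  · rw [if_neg fun h => hg ⟨h.1.1, by omega⟩, if_neg]
    rintro ⟨h1, h2, -, h4⟩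
    exact hg ⟨⟨h1, h2⟩, le_trans h4 hle⟩
  obtain ⟨hs, hk⟩ := hg
  rw [if_pos ⟨⟨hs, by omega⟩, by omega⟩]
  by_cases hw : IsWire L (y + 1)
  · obtain ⟨-, e, -, hpk⟩ := hr2 hw
    obtain ⟨hMy, ek⟩ := hpk (by omega)
    have cT : IsCol L X 3 ∧ lo L X = 0 ∧ M L ≤ y + 1 ∧ A C ≤ rowIdx L (y + 1) :=
      ⟨hs.1, hs.2, M_le_of_wire hw, by omega⟩
    by_cases hm : hi L (y + 1) % T C = 0
    · rw [if_pos ⟨hw, hm⟩]
      by_cases hkA : hi L (y + 1) = A C
      · rw [if_pos (by omega), if_pos cT, e, hkA, Nat.sub_self, Nat.zero_div, pow_zero,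
          Nat.mod_eq_of_lt hM2]
      · rw [if_neg (by omega), if_pos cT, e, if_pos ⟨hs.1, hs.2, hMy, by omega⟩]
        obtain ⟨q, hq⟩ := Nat.dvd_of_mod_eq_zero ((mod_T_sub hk).trans hm)
        obtain ⟨q', rfl⟩ : ∃ q', q = q' + 1 := ⟨q - 1, by
          rcases Nat.eq_zero_or_pos q with h | h
          · subst h; simp at hq; omega
          · omega⟩
        rw [hq, show rowIdx L y - A C = (T C - 1) + T C * q' by rw [Nat.mul_add] at hq; omega,
          Nat.add_mul_div_left _ _ hT, Nat.div_eq_of_lt (show T C - 1 < T C by omega), Nat.mul_div_cancel_left _ hT,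
          Nat.zero_add, pow_succ', Nat.mul_mod_mod]
    · rw [if_neg fun h => hm h.2]
      have hkA : A C < hi L (y + 1) := by
        rcases Nat.lt_or_ge (A C) (hi L (y + 1)) with h | h
        · exact h
        · refine absurd ?_ hm
          rw [show hi L (y + 1) = A C by omega]
          exact Nat.mod_eq_zero_of_dvd (T_dvd_A C)
      rw [if_pos cT, e, if_pos ⟨hs.1, hs.2, hMy, by omega⟩]
      refine congrArg (fun n => 2 ^ n % M L) ?_
      have h1 := Nat.div_add_mod (hi L (y + 1) - A C) (T C)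
      have h2 : 0 < (hi L (y + 1) - A C) % T C := by
        rw [mod_T_sub hk]; omega
      have h3 := Nat.mod_lt (hi L (y + 1) - A C) hT
      symm
      refine Nat.div_eq_of_lt_le ?_ ?_
      · rw [Nat.mul_comm ((hi L (y + 1) - A C) / T C)]
        omega
      · rw [Nat.add_mul, one_mul, Nat.mul_comm ((hi L (y + 1) - A C) / T C)]
        omega
  · rw [if_neg fun h => hw h.1]
    by_cases hwy : IsWire L y
    · obtain ⟨e1, -, e3, e4, -⟩ := hr1 hwy
      simp only [e1, e4, e3, show M L ≤ y + 1 by omega]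
    · obtain ⟨-, e2, e3⟩ := hr3 hwy hw
      simp only [e2, e3]

end Vale.Agent.P193.W4.Common
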