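import Vale.Agent.P193.W4.Common.Facts.Vert

/-!
P193, module W4.A (common layer): every signature made of children obeys the rules.
-/

noncomputable section

namespace Vale.Agent.P193.W4.Common

variable {C : Cfg} {L : ℕ}

/-- The middle branch, for abstract values (the kernel must not unfold the concrete ones). -/
lemma match_pass (o q : Bool) {s : Option (Mid C.k)} (h : s = some .pass) :
    (match (generalizing := false) s with
      | some .reset => o | some .pass => q | _ => false) = q := by
  subst h; rfl

lemma childOn_pass (b : ℕ → Bits) (Z : Digits C) (h : sym (Z 2) = some .pass) :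
    childOn L b Z = (pfOf C b).wOn := by
  unfold childOn
  exact match_pass _ _ h

/-- The rules of a single child. -/
theorem childP (hL : L₀ C ≤ L) (τ : ℕ → Bool) (b : ℕ → Bits) {X Y : ℕ} (Z : Digits C)
    (hX : X < H L) (hY : Y < H L) : PFacts (cell L (child L τ b X Y Z)) where
  live_wire h := by
    simp only [child_live τ b X Y Z hY, decide_eq_true_iff] at h
    exact (claims_wire τ b X Y Z hY).2 h.1
  live_low hw hk := by
    simp only [claims_wire τ b X Y Z hY, claims_yhC τ b X Y Z hY] at hw hk
    simp only [child_live τ b X Y Z hY, decide_eq_true_iff]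
    refine ⟨hw, ?_⟩
    have := AF_lt C
    have := A_lt_YB C
    unfold lastK
    omega
  live_scan hw hs hm hk := by
    simp only [claims_wire τ b X Y Z hY, claims_scan τ b X Y Z hX, claims_middle τ b X Y Z,
      claims_yhC τ b X Y Z hY] at hw hs hm hk
    simp only [child_live τ b X Y Z hY, child_carry τ b X Y Z hX hY]
    have hi1 := rowIdx_wire hw
    by_cases h : IsLive C L Y
    · rw [if_pos ⟨hs.1, hs.2, M_le_of_wire hw, by omega, by rw [hi1]; exact h.2, hm⟩]
      simp [h]
    · rw [if_neg fun hh => h ⟨hw, by rw [← hi1]; exact hh.2.2.2.2.1⟩]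
      simp [h]
  h_zero hl g := by
    simp only [child_live τ b X Y Z hY, decide_eq_false_iff_not] at hl
    rw [child_h τ b X Y Z hX hY, if_neg fun h => hl h.1]
  vb_zero hb g := by
    rw [child_vb τ b X Y Z hX hY, if_neg]
    intro h
    rw [(claims_bundle τ b X Y Z hX).2 h.1] at hb
    exact Bool.noConfusion hb
  h_first g a ha hf hg := by
    rw [child_h τ b X Y Z hX hY, if_neg]
    rintro ⟨-, h⟩
    rw [claims_first τ b X Y Z hX hY, atFirst_iff] at hf
    have := ((shownH_iff X Y Z g).1 h a ha).1 hf
    rw [hg] at this
    exact Bool.noConfusion this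
  vb_first g a ha hf hg := by
    rw [child_vb τ b X Y Z hX hY, if_neg]
    rintro ⟨-, -, h⟩
    rw [claims_first τ b X Y Z hX hY, atFirst_iff] at hf
    have := ((shownV_iff X Y Z g).1 h a ha).1 hf
    rw [hg] at this
    exact Bool.noConfusion this
  h_last g i hz hg := by
    rw [child_h τ b X Y Z hX hY, if_neg]
    rintro ⟨-, -, -, h⟩
    rw [(h i).2 hz] at hg
    exact Bool.noConfusion hg
  vb_last g i hz hg := by
    rw [child_vb τ b X Y Z hX hY, if_neg]
    rintro ⟨-, -, -, -, h⟩
    rw [(h i).2 hz] at hg
    exact Bool.noConfusion hg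
  diag hw hb hd := by
    simp only [claims_wire τ b X Y Z hY, claims_bundle τ b X Y Z hX,
      claims_diag τ b X Y Z hX hY] at hw hb hd
    funext g
    rw [child_h τ b X Y Z hX hY, child_vb τ b X Y Z hX hY,
      show lo L X / 2 = hi L Y by omega]
    obtain ⟨hx0, hx7⟩ := col_range hL hb.1 le_rfl (by norm_num)
    by_cases hk : hi L Y ≤ lastK C L
    · have hlt := live_lt_halfY hL ⟨hw, hk⟩
      have hy0 : Y ≠ 0 := fun h0 => by
        have := hw.2
        simp [h0, mid] at this
      refine if_congr ⟨fun h => ⟨hb, hk, fun e => absurd e hy0, fun e => absurd e (by omega),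
        h.2.2.2⟩, fun h => ⟨⟨hw, hk⟩, fun e => absurd e (by omega), fun e => absurd e (by omega),
        h.2.2.2.2⟩⟩ rfl rfl
    · rw [if_neg fun h => hk h.1.2, if_neg fun h => hk h.2.1]
  v_zone hz := by
    rw [child_v τ b X Y Z hX hY, if_neg]
    intro h
    rw [(claims_zone τ b X Y Z hX hY).2 h] at hz
    exact Bool.noConfusion hz
  on_none h1 h2 := by
    simp only [claims_z] at h1 h2
    simp only [child_on, childOn]
  on_pass h := by
    simp only [claims_z] at h
    exact (child_on τ b X Y Z).trans
      ((childOn_pass b Z h).trans (congrArg PF.wOn (child_pf τ b X Y Z).symm))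
  on_reset h m hm := by
    simp only [claims_z] at h
    simp only [child_on, childOn, h]
    simp only [claims] at hm
    split_ifs at hm
    obtain rfl := Option.some.inj hm
    rfl
  wd_reset h hon m hm r := by
    simp only [claims_z] at h
    simp only [child_on] at hon
    have hu : (child L τ b X Y Z).u ≠ 0 := fun e => by simp [claims, e] at hm
    have hcond : IsCol L X 3 ∧ lo L X = 0 ∧ M L ≤ Y ∧ A C ≤ rowIdx L Y := by
      by_contra hc
      rw [child_u τ b X Y Z hX hY, if_neg hc] at hu
      exact hu rfl
    obtain ⟨h1, h2, h3, h4⟩ := hcond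
    have hi : (rowIdx L Y - A C) / T C < L := by
      by_contra hc
      rw [child_u_scan τ b X Y Z hX hY ⟨h1, h2⟩ h3 h4] at hu
      exact hu (Nat.mod_eq_zero_of_dvd (pow_dvd_pow 2 (by omega)))
    rw [claims_mach τ b X Y Z hX hY ⟨h1, h2⟩ h3 h4, scanMach, if_pos hi] at hm
    obtain rfl := Option.some.inj hm
    rw [claims_wd τ b X Y Z hX hY ⟨h1, h2⟩ h3 h4 hi, childWord, if_pos hon, h]
    exact testBit_kWord r hi
  wd_pass h hon hs hm hw hA hu r hr := by
    simp only [claims_z] at h
    simp only [child_on] at hon
    simp only [claims_scan τ b X Y Z hX, claims_middle τ b X Y Z, claims_wire τ b X Y Z hY,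
      claims_yhC τ b X Y Z hY, claims_yhMod τ b X Y Z hY] at hs hm hw hA hr
    have hA' : A C ≤ hi L Y := by omega
    have hk := rowIdx_wire hw
    rw [claims_u0 τ b X Y Z hX hY hs (M_le_of_wire hw) (hk ▸ hA'), decide_eq_false_iff_not,
      hk] at hu
    rw [claims_wd τ b X Y Z hX hY hs (M_le_of_wire hw) (hk ▸ hA') (by rw [hk]; omega), childWord,
      if_pos hon, h, hk]
    have hmod : (hi L Y - A C) % T C = r.val + 7 := by
      rw [← hr]
      obtain ⟨c, hc⟩ := T_dvd_A C
      conv_rhs => rw [show hi L Y = (hi L Y - A C) + T C * c by omega, Nat.add_mul_mod_self_left]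
    have hdiv := Nat.div_add_mod (hi L Y - A C) (T C)
    have hl : IsLive C L Y := by
      refine ⟨hw, ?_⟩
      have h3 : T C * ((hi L Y - A C) / T C + 1) ≤ T C * L := Nat.mul_le_mul_left _ (by omega)
      have := Nat.mod_lt (hi L Y - A C) (T_pos C)
      rw [Nat.mul_add] at h3
      unfold lastK
      omega
    have hh := band_h hL τ b hX hY hs.1 (by norm_num) (by norm_num) hl hm
    rw [hh]
    refine (testBit_wOf b r (by omega)).trans ?_
    congr 1
    omega

/-- The position behind on an axis. -/
def behindX (L : ℕ) (a : Fin 5) (X : ℕ) : ℕ := if a = 0 then pred' L X else X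

/-- The vertical position behind on an axis. -/
def behindY (L : ℕ) (a : Fin 5) (Y : ℕ) : ℕ := if a = 1 then pred' L Y else Y

/-- The digits behind on an axis. -/
def behindZ (a : Fin 5) (Z : Digits C) : Digits C :=
  fun i => if a = zAx i then predDigit (Z i) else Z i

lemma posAt_behind (a : Fin 5) {X Y : ℕ} (Z : Digits C) (hX : X < H L) (hY : Y < H L) :
    (∀ e, e ≠ a →
      posAt (behindX L a X) (behindY L a Y) (behindZ a Z) e = posAt X Y Z e) ∧
    ((posAt X Y Z a = 0 ∧
        posAt (behindX L a X) (behindY L a Y) (behindZ a Z) a + 1 = sizeOf' C L a) ∨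
      (0 < posAt X Y Z a ∧
        posAt (behindX L a X) (behindY L a Y) (behindZ a Z) a + 1 = posAt X Y Z a)) := by
  have h0 := pred_cases hX
  have h1 := pred_cases hY
  have hH := H_pos L
  have h2 := predDigit_cases (Z 0)
  have h3 := predDigit_cases (Z 1)
  have h4 := predDigit_cases (Z 2)
  refine ⟨fun e he => ?_, ?_⟩
  · fin_cases a <;> fin_cases e <;> simp [posAt, behindX, behindY, behindZ, zAx] at he ⊢
  · fin_cases a <;> simp [posAt, behindX, behindY, behindZ, zAx, sizeOf'] <;> omega

/-- The rules of two children behind each other. -/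
theorem childE (hL : L₀ C ≤ L) (τ : ℕ → Bool) {b b' : ℕ → Bits} {X Y : ℕ} (Z : Digits C)
    (hX : X < H L) (hY : Y < H L) {a : Fin 5} (hb : EBits (atFirst X Y Z a) a b b') :
    EFacts a (cell L (child L τ b X Y Z))
      (cell L (child L τ b' (behindX L a X) (behindY L a Y) (behindZ a Z))) := by
  have hX' : behindX L a X < H L := by unfold behindX; split_ifs; exacts [pred'_lt L X, hX]
  have hY' : behindY L a Y < H L := by unfold behindY; split_ifs; exacts [pred'_lt L Y, hY]
  obtain ⟨hne, hp⟩ := posAt_behind (L := L) a Z hX hY
  refine ⟨fun ha => ?_, fun ha => child_bitRule_h hL τ hX hY hX' hY' ha hne hp hb,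
    fun ha => child_bitRule_vb hL τ hX hY hX' hY' ha hne hp hb, fun hf => ?_, fun i => ?_,
    fun ha => ?_, ?_, ?_, ?_⟩
  · have : behindY L a Y = Y := if_neg ha
    simp only [this, child_live τ _ _ _ _ hY]
  · simp only [child_pf]
    rw [EBits, if_neg] at hb
    · rw [hb]
    · intro h
      rw [(claims_first τ b X Y Z hX hY a).2 h] at hf
      exact Bool.noConfusion hf
  · simp only [claims_z, behindZ]
    split_ifs <;> rfl
  · have e1 : behindX L a X = X := if_neg (by rintro rfl; simp at ha)
    have e2 : behindY L a Y = Y := if_neg (by rintro rfl; simp at ha)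
    simp only [e1, e2, child_v τ _ _ _ _ hX hY]
  all_goals
    rintro rfl
    have e1 : behindX L 1 X = X := if_neg (by decide)
    have e2 : behindY L 1 Y = pred' L Y := if_pos rfl
    have e3 : behindZ 1 Z = Z := funext fun i => if_neg (by fin_cases i <;> decide)
    have hb1 : EBits (decide (Y = 0)) 1 b b' := by
      have : atFirst X Y Z 1 = decide (Y = 0) := rfl
      rwa [this] at hb
    simp only [e1, e2, e3]
    first
    | exact childV_carry hL hX hY hb1
    | exact childV_eq hL hX hY hb1
    | exact childV_look hL hX hY hb1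

/-- Every window of children obeys the rules. -/
theorem shape_facts {s : Sig C} (h : Shape s) : WFacts s := by
  obtain ⟨L, τ, b, X, Y, Z, hL, hX, hY, rfl⟩ := h
  have hXd : ∀ d : Guest, (if d 0 then pred' L X else X) < H L := fun d => by
    split_ifs
    exacts [pred'_lt L X, hX]
  have hYd : ∀ d : Guest, (if d 1 then pred' L Y else Y) < H L := fun d => by
    split_ifs
    exacts [pred'_lt L Y, hY]
  refine ⟨fun d => childP hL τ _ _ (hXd d) (hYd d), fun d a hda => ?_⟩
  have hb : EBits
      (atFirst (if d 0 then pred' L X else X) (if d 1 then pred' L Y else Y)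
        (fun i => if d (zAx i) then predDigit (Z i) else Z i) a) a
      (guestBits (fun c => d c && atFirst X Y Z c) b)
      (guestBits (fun c => back d a c && atFirst X Y Z c) b) := by
    have hfa : atFirst (if d 0 then pred' L X else X) (if d 1 then pred' L Y else Y)
        (fun i => if d (zAx i) then predDigit (Z i) else Z i) a = atFirst X Y Z a := by
      fin_cases a <;> simp [atFirst, zAx] at hda ⊢ <;> simp [hda]
    rw [hfa]
    unfold EBits
    split_ifs with hf
    · intro k g hg
      unfold guestBits
      refine if_congr ⟨?_, ?_⟩ rfl (congrArg (b k) (funext fun c => ?_))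
      · rintro ⟨c, h1, h2⟩
        have hca : c ≠ a := fun e => by subst e; rw [hg] at h2; exact Bool.noConfusion h2
        exact ⟨c, by simpa [back, hca] using h1, by simp [back, h2]⟩
      · rintro ⟨c, h1, h2⟩
        have hca : c ≠ a := fun e => by subst e; simp [hda] at h1
        exact ⟨c, by simpa [back, hca] using h1, by simpa [back, hca] using h2⟩
      · by_cases hca : c = a
        · subst hca; simp [back, hf]
        · simp [back, hca]
    · funext k g
      refine congrArg (fun δ => guestBits δ b k g) (funext fun c => ?_)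
      by_cases hca : c = a
      · subst hca; simp at hf; simp [back, hf]
      · simp [back, hca]
  have := childE hL τ (fun i => if d (zAx i) then predDigit (Z i) else Z i) (hXd d) (hYd d) hb
  have ex : behindX L a (if d 0 then pred' L X else X) =
      (if back d a 0 then pred' L X else X) := by
    unfold behindX
    by_cases h : a = 0
    · subst h; simp [back, hda]
    · simp [back, Ne.symm h, h]
  have ey : behindY L a (if d 1 then pred' L Y else Y) =
      (if back d a 1 then pred' L Y else Y) := by
    unfold behindY
    by_cases h : a = 1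
    · subst h; simp [back, hda]
    · simp [back, Ne.symm h, h]
  have ez : behindZ a (fun i => if d (zAx i) then predDigit (Z i) else Z i) =
      fun i => if back d a (zAx i) then predDigit (Z i) else Z i := by
    funext i
    unfold behindZ
    by_cases h : a = zAx i
    · subst h; simp [back, hda]
    · simp [back, Ne.symm h, h]
  rw [ex, ey, ez] at this
  exact this

end Vale.Agent.P193.W4.Common
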