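import Vale.Agent.P193.W4.Common.Facts.Claims

/-!
P193, module W4.A (common layer): one step of the scanning column and of the table columns.
-/

noncomputable section

namespace Vale.Agent.P193.W4.Common

variable {C : Cfg} {L : ℕ}

lemma mod_T_sub {k : ℕ} (hk : A C ≤ k) : (k - A C) % T C = k % T C := by
  obtain ⟨c, hc⟩ := T_dvd_A C
  conv_rhs => rw [show k = (k - A C) + T C * c by omega, Nat.add_mul_mod_self_left]

lemma stepRow_eq (c : Carry C) (L : ℕ) (b : ℕ → Bits) (k : ℕ) (d : Option (Mach C))
    (hd : A C ≤ k → d = scanMach C L ((k - A C) / T C)) :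
    c.stepRow (min k (YB C)) (k % T C) (b k) d = c.step L k b := by
  have hYB := A_lt_YB C
  have hF := AF_lt C
  unfold Carry.step Carry.stepRow
  by_cases h1 : k < AF C
  · rw [if_pos (by omega), if_pos h1]
  rw [if_neg (by omega), if_neg h1]
  by_cases h2 : k < A C - 2
  · rw [if_pos (by omega), if_pos h2, show min k (YB C) = k by omega]
  rw [if_neg (by omega), if_neg h2]
  by_cases h3 : k < A C
  · rw [if_pos (by omega), if_pos h3]
  rw [if_neg (by omega), if_neg h3, hd (by omega), mod_T_sub (by omega)]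

lemma scan_low (C : Cfg) (L : ℕ) (b : ℕ → Bits) : ∀ k < AF C, scan C L b k = Carry.init C := by
  intro k
  induction k with
  | zero => intro h; simp [scan, Carry.step, Carry.stepRow, h]
  | succ k ih =>
    intro h
    show (scan C L b k).step L (k + 1) b = _
    rw [ih (by omega), Carry.step, Carry.stepRow, if_pos h]

lemma scan_AF (b : ℕ → Bits) (d : Option (Mach C)) : scan C L b (AF C) =
    (Carry.init C).stepRow (AF C) (AF C % T C) (b (AF C)) d := by
  have hF := AF_lt C
  have hYB := A_lt_YB C
  have := stepRow_eq (Carry.init C) L b (AF C) d fun h => by omega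
  rw [show min (AF C) (YB C) = AF C by omega] at this
  rw [this]
  obtain ⟨a, ha⟩ : ∃ a, AF C = a + 1 := ⟨AF C - 1, by omega⟩
  rw [ha]
  show (scan C L b a).step L (a + 1) b = _
  rw [scan_low C L b a (by omega)]

lemma scan_succ (b : ℕ → Bits) (k : ℕ) (d : Option (Mach C))
    (hd : A C ≤ k + 1 → d = scanMach C L ((k + 1 - A C) / T C)) :
    scan C L b (k + 1) =
      (scan C L b k).stepRow (min (k + 1) (YB C)) ((k + 1) % T C) (b (k + 1)) d := by
  rw [stepRow_eq _ _ _ _ _ hd]
  rfl

/-- The claimed bits of the column are the ones compared on row `k`. -/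
lemma zoneMatch_iff {x k : ℕ} (hk : k < A C) (b : ℕ → Bits) (hh : Bits) (hq : hh = b k) :
    zoneMatch L x k b = decide (hh = fun g : Guest =>
      decide (min k (YB C) < A C) &&
        (lo L x).testBit (32 * min k (YB C) + (gidx g).val + 2)) := by
  have hYB := A_lt_YB C
  subst hq
  unfold zoneMatch
  rw [decide_eq_decide, funext_iff]
  have e : min k (YB C) = k := by omega
  simp [e, hk]

lemma eq_step {x n : ℕ} (b : ℕ → Bits) :
    decide (∀ k' < n + 1, zoneMatch L x k' b = true) =
      ((decide (∀ k' < n, zoneMatch L x k' b = true)) && zoneMatch L x n b) := by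
  rw [Bool.eq_iff_iff, Bool.and_eq_true, decide_eq_true_iff, decide_eq_true_iff]
  exact ⟨fun h => ⟨fun k hk => h k (by omega), h n (by omega)⟩,
    fun h k hk => by rcases Nat.lt_succ_iff_lt_or_eq.1 hk with h' | rfl
                     · exact h.1 k h'
                     · exact h.2⟩

lemma lookAt_zero (C : Cfg) (L x : ℕ) (b : ℕ → Bits) : lookAt C L x 0 b = ⟨0, false, true⟩ := by
  simp [lookAt, copyUpTo]

lemma xlRow_div (C : Cfg) (i : ℕ) :
    lidx C (xlRow C i) = i ∧ xlRow C i % T C = 0 ∧ (xlRow C i - A C) / T C = i := by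
  have hT := T_pos C
  obtain ⟨c, hc⟩ := T_dvd_A C
  have e : (xlRow C i - A C) / T C = i := by
    rw [xlRow, Nat.add_sub_cancel_left, Nat.mul_div_cancel_left _ hT]
  refine ⟨e, ?_, e⟩
  rw [xlRow, hc, ← Nat.mul_add, Nat.mul_mod_right]

lemma lookAt_succ {x n : ℕ} (hn : n < xlRow C (B C - 1)) (b : ℕ → Bits) :
    lookAt C L x (n + 1) b = (lookAt C L x n b).stepRow (min n (YB C)) (n % T C) (b n self)
      (decide (A C ≤ min n (YB C)) && decide (lidx C (min n (YB C)) < B C) &&
        (lo L x).testBit (lidx C (min n (YB C)))) := by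
  have hT := T_pos C
  have hmin : min n (YB C) = n := by
    have : T C * (B C - 1) ≤ T C * (B C + 2) := Nat.mul_le_mul_left _ (by omega)
    unfold YB at *
    unfold xlRow at hn
    omega
  rw [hmin]
  have hF := AF_lt C
  simp only [lookAt, copyUpTo, Look.stepRow, Look.mk.injEq]
  refine ⟨Fin.ext ?_, ?_, ?_⟩
  · simp only
    rw [Nat.mod_add_mod]
    refine congrArg (fun s : ℕ => s % 2 ^ (A C - 2 - AF C)) ?_
    by_cases h : AF C ≤ n ∧ n < A C - 2
    · rw [show min (n + 1 - AF C) (A C - 2 - AF C) = (n - AF C) + 1 by omega,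
        show min (n - AF C) (A C - 2 - AF C) = n - AF C by omega, Finset.sum_range_succ,
        show AF C + (n - AF C) = n by omega]
      simp [h.1, h.2]
    · rw [if_neg fun h' => h ⟨h'.1, h'.2.1⟩,
        show min (n + 1 - AF C) (A C - 2 - AF C) = min (n - AF C) (A C - 2 - AF C) by omega]
      exact (Nat.add_zero _).symm
  · rcases Nat.eq_zero_or_pos n with rfl | hp
    · simp
    · simp [hp, Nat.pos_iff_ne_zero.1 hp]
  · rw [Nat.mod_mod, Bool.eq_iff_iff]
    simp only [decide_eq_true_iff, Bool.and_eq_true, Bool.or_eq_true, Bool.not_eq_true',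
      Bool.and_eq_false_iff, decide_eq_false_iff_not, beq_iff_eq]
    constructor
    · intro h
      refine ⟨fun i hi hk => h i hi (by omega), ?_⟩
      by_cases hc : A C ≤ n ∧ n % T C = 0
      · refine Or.inr ?_
        obtain ⟨i, rfl⟩ : ∃ i, n = xlRow C i := by
          obtain ⟨c, hc'⟩ := T_dvd_A C
          obtain ⟨q, hq⟩ := Nat.dvd_of_mod_eq_zero hc.2
          exact ⟨q - c, by rw [xlRow, Nat.mul_sub, ← hq, ← hc']; omega⟩
        have hi : i < B C := by
          by_contra hi
          have : T C * (B C - 1) ≤ T C * i := Nat.mul_le_mul_left _ (by omega)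
          unfold xlRow at hn
          omega
        rw [(xlRow_div C i).1, h i hi (by omega)]
        simp [hc.1, hi]
      · exact Or.inl (by tauto)
    · rintro ⟨h1, h2⟩ i hi hk
      rcases Nat.lt_succ_iff_lt_or_eq.1 hk with h' | h'
      · exact h1 i hi h'
      · obtain ⟨hl, hm, -⟩ := xlRow_div C i
        have hc : A C ≤ n ∧ n % T C = 0 := by
          rw [← h']; exact ⟨Nat.le_add_right _ _, hm⟩
        rcases h2 with h2 | h2
        · exact absurd hc fun hc => by rcases h2 with h2 | h2 <;> [exact h2 hc.1; exact h2 hc.2]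
        · rw [h', h2]
          rw [h'] at hl
          simp [hc.1, hi, hl]

/-- A bit of the inherited part of a word. -/
lemma testBit_wOf (b : ℕ → Bits) (r : Track C) {i : ℕ} (hi : i < L) :
    (wOf C L b r).testBit i = b (A C + T C * i + 7 + r.val) self := by
  rw [wOf, testBit_sum]
  simp [hi]

/-- A bit of the word of a row. -/
lemma testBit_kWord (r : Track C) {i : ℕ} (hi : i < L) :
    (kWord C L r).testBit i = resetBits (machAt C L i) r := by
  rw [kWord, testBit_sum, resetBits, machAt]
  by_cases h : L₀ C ≤ i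
  · simp [h, hi, wordLetter]
  · simp [h, hi]

end Vale.Agent.P193.W4.Common
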