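import Vale.Agent.P193.W4.Common.Spec

/-!
P193, module W4.A (common layer): the finite rules obeyed by children.

They are read on one tile (`PFacts`) and on a tile and the one behind it on an axis (`EFacts`).
Horizontal bits move along every axis but `1`, vertical bits along every axis but `0`, by one rule:
at the first position of a parent only the guests back along the axis are shown, and they are shown
up to the cut. The states of the scanning and table columns are functions of the state below.
-/

noncomputable section

namespace Vale.Agent.P193.W4.Common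

variable {C : Cfg}

/-- The finite data of one tile. -/
abbrev Cell (C : Cfg) : Type := Fin' C × Claims C

/-- The finite data of a state. -/
abbrev cell (L : ℕ) (t : St C) : Cell C := (t.fin, claims L t)

namespace Claims

/-- The column `x = 0`. -/
def x0 (c : Claims C) : Bool := c.cx.xh0 && c.cx.xl0 && decide (c.cx.xmC.val = 0)

/-- The column `x = 7*M`. -/
def cut (c : Claims C) : Bool := c.cx.xh0 && c.cx.xl0 && decide (c.cx.xmC.val = 7)

/-- The middle row. -/
def halfRow (c : Claims C) : Bool := c.cy.yl0 && decide (c.cy.ymC.val = 2) && c.cy.yhHalf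

/-- The first position on an axis. -/
def firstAt (c : Claims C) : Fin 5 → Bool :=
  ![c.x0, c.isY0, decide ((c.ex.z 0).val = 0), decide ((c.ex.z 1).val = 0),
    decide ((c.ex.z 2).val = 0)]

/-- The last position showing the guests back along an axis. -/
def cutAt (c : Claims C) : Fin 5 → Bool :=
  ![c.cut, c.halfRow, decide ((c.ex.z 0).val + 2 = base C.k), decide ((c.ex.z 1).val + 2 = base C.k),
    decide ((c.ex.z 2).val + 2 = base C.k)]

end Claims

/-- The guest one step less back along an axis. -/
def drop (g : Guest) (a : Fin 5) : Guest := fun c => g c && !decide (c = a)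

/-- Bits shown along the axis `a`: `t` on a tile, `d` on the tile behind it. -/
def BitRule (first cut dfirst : Bool) (a : Fin 5) (t d : Bits) : Prop :=
  if first then ∀ g, t g = (g a && d (drop g a))
  else if cut then ∀ g, t g = (!g a && d g)
  else if dfirst then ∀ g, g a = true → t g = d g
  else t = d

/-- The lookup step at a row with index `k`: `q` is the bit of the parent, `ql` that of the
column. -/
def Look.stepRow (l : Look C) (k m : ℕ) (q ql : Bool) : Look C where
  copy := ⟨(l.copy.val + if AF C ≤ k ∧ k < A C - 2 ∧ q = true then 2 ^ (k - AF C) else 0) %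
      2 ^ (A C - 2 - AF C), Nat.mod_lt _ (Nat.two_pow_pos _)⟩
  vv := if k = 0 then q else l.vv
  eq := l.eq && (!(decide (A C ≤ k) && decide (m % T C = 0)) || (q == ql))

/-- The scanning column stops at this wire row. -/
def endPhase (t d : Claims C) : Bool :=
  decide (t.cy.yhMod.val = 0) && decide (A C < t.cy.yhC.val) && t.cm.u0 && d.cm.u0

/-- The state of the scanning column from the state below and the bits shown. -/
def carryNext (t d : Claims C) (dc : Option (Carry C)) (q : Bits) : Option (Carry C) :=
  if t.isScan && t.middle then
    if t.isWire then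
      if t.cy.yhC.val < AF C then none
      else if t.cy.yhC.val = AF C then
        some ((Carry.init C).stepRow (AF C) t.cy.yhMod.val q t.ex.mach)
      else if endPhase t d then none
      else dc.map fun c => c.stepRow t.cy.yhC.val t.cy.yhMod.val q t.ex.mach
    else if t.isY0 then none else dc
  else none

/-- The state of the equality column from the state below. -/
def eqNext (t d : Claims C) (de : Option Bool) (dh : Bits) : Option Bool :=
  if t.zoneAt 4 && t.middle then
    if t.isY0 then none
    else if t.isWire && decide (t.cy.yhC.val = 0) then some true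
    else if d.isWire then
      (if d.cy.yhC.val < A C - 1 then de.map fun e => e && decide (dh = d.cm.q) else none)
    else de
  else none

/-- The state of the lookup column from the state below. -/
def lookNext (t d : Claims C) (dl : Option (Look C)) (dh : Bits) : Option (Look C) :=
  if t.zoneAt 6 && t.middle then
    if t.isY0 then none
    else if t.isWire && decide (t.cy.yhC.val = 0) then some ⟨0, false, true⟩
    else if d.isWire then
      (if d.cy.yhC.val < xlRow C (B C - 1) then
        dl.map fun l => l.stepRow d.cy.yhC.val d.cy.yhMod.val (dh self) d.cm.ql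
      else none)
    else dl
  else none

/-- The bits of a word at the index of the counter after a reset. -/
def resetBits (m : Mach C) (r : Track C) : Bool :=
  m.cur.isSome && letterBits C (if m.alive then m.cur.bind C.R.read else none) r

/-- Rules of a single tile. -/
structure PFacts (t : Cell C) : Prop where
  live_wire : t.1.live = true → t.2.isWire = true
  live_low : t.2.isWire = true → t.2.cy.yhC.val < AF C → t.1.live = true
  live_scan : t.2.isWire = true → t.2.isScan = true → t.2.middle = true →
    AF C ≤ t.2.cy.yhC.val → t.1.live = t.1.carry.isSome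
  h_zero : t.1.live = false → ∀ g, t.1.h g = false
  vb_zero : t.2.bundle = false → ∀ g, t.1.vb g = false
  h_first : ∀ (g : Guest) (a : Fin 5), a ≠ 1 → t.2.firstAt a = true → g a = false →
    t.1.h g = false
  vb_first : ∀ (g : Guest) (a : Fin 5), a ≠ 0 → t.2.firstAt a = true → g a = false →
    t.1.vb g = false
  h_last : ∀ (g : Guest) (i : Fin 3), (t.2.ex.z i).val + 1 = base C.k → g (zAx i) = true →
    t.1.h g = false
  vb_last : ∀ (g : Guest) (i : Fin 3), (t.2.ex.z i).val + 1 = base C.k → g (zAx i) = true →
    t.1.vb g = false
  diag : t.2.isWire = true → t.2.bundle = true → t.2.cm.diag = true → t.1.h = t.1.vb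
  v_zone : t.2.zone = false → t.1.v = false
  on_none : sym (t.2.ex.z 2) ≠ some .reset → sym (t.2.ex.z 2) ≠ some .pass → t.1.wOn = false
  on_pass : sym (t.2.ex.z 2) = some .pass → t.1.wOn = t.1.pf.wOn
  on_reset : sym (t.2.ex.z 2) = some .reset → ∀ m, t.2.ex.mach = some m → t.1.wOn = m.em
  wd_reset : sym (t.2.ex.z 2) = some .reset → t.1.wOn = true →
    ∀ m, t.2.ex.mach = some m → ∀ r, t.2.ex.wd r = resetBits m r
  wd_pass : sym (t.2.ex.z 2) = some .pass → t.1.wOn = true → t.2.isScan = true →
    t.2.middle = true → t.2.isWire = true → A C ≤ t.2.cy.yhC.val → t.2.cm.u0 = false →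
    ∀ r : Track C, t.2.cy.yhMod.val = r.val + 7 → t.2.ex.wd r = t.1.h self

/-- Rules of a tile and the tile one step back along the axis `a`. -/
structure EFacts (a : Fin 5) (t d : Cell C) : Prop where
  live : a ≠ 1 → t.1.live = d.1.live
  h : a ≠ 1 → BitRule (t.2.firstAt a) (d.2.cutAt a) (d.2.firstAt a) a t.1.h d.1.h
  vb : a ≠ 0 → BitRule (t.2.firstAt a) (d.2.cutAt a) (d.2.firstAt a) a t.1.vb d.1.vb
  pf : t.2.firstAt a = false → t.1.pf = d.1.pf
  digit : ∀ i, if a = zAx i then d.2.ex.z i = predDigit (t.2.ex.z i)
    else d.2.ex.z i = t.2.ex.z i
  v : 2 ≤ a.val → t.1.v = d.1.v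
  carry : a = 1 → t.1.carry = carryNext t.2 d.2 d.1.carry t.1.h
  eq : a = 1 → t.1.eq = eqNext t.2 d.2 d.1.eq d.1.h
  look : a = 1 → t.1.look = lookNext t.2 d.2 d.1.look d.1.h

/-- All the rules of a window. -/
structure WFacts (s : Sig C) : Prop where
  p : ∀ g, PFacts (s g)
  e : ∀ g a, g a = false → EFacts a (s g) (s (back g a))

end Vale.Agent.P193.W4.Common
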