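import Vale.Agent.P193.W4.Common.Coords
import Vale.Agent.P193.W4.Common.Facts.Defs

/-!
P193, module W4.A (common layer): the fields and the claims of a child.
-/

noncomputable section

namespace Vale.Agent.P193.W4.Common

variable {C : Cfg} {L : ℕ}

lemma zone_ge (c : Claims C) (h : c.zone = true) : c.zoneAt 4 = true ∨ c.zoneAt 6 = true := by
  simp only [Claims.zone, Bool.or_eq_true, Bool.and_eq_true] at h
  rcases h with h | h
  · exact Or.inl h.1
  · exact Or.inr h

section

variable (τ : ℕ → Bool) (b : ℕ → Bits) (X Y : ℕ) (Z : Digits C)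

lemma child_x (hX : X < H L) : (child L τ b X Y Z).x = X := Nat.mod_eq_of_lt hX

lemma child_y (hY : Y < H L) : (child L τ b X Y Z).y = Y := Nat.mod_eq_of_lt hY

lemma child_z : (child L τ b X Y Z).z = Z := rfl

lemma child_u (hX : X < H L) (hY : Y < H L) : (child L τ b X Y Z).u =
    if IsCol L X 3 ∧ lo L X = 0 ∧ M L ≤ Y ∧ A C ≤ rowIdx L Y
    then 2 ^ ((rowIdx L Y - A C) / T C) % M L else 0 := by
  show (if _ then _ else _) = _
  simp only [Nat.mod_eq_of_lt hX, Nat.mod_eq_of_lt hY]

lemma child_w : (child L τ b X Y Z).w = childWord L b Z := rfl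

lemma child_pf : (child L τ b X Y Z).fin.pf = pfOf C b := rfl

lemma child_on : (child L τ b X Y Z).fin.wOn = childOn L b Z := rfl

lemma child_h (hX : X < H L) (hY : Y < H L) (g : Guest) : (child L τ b X Y Z).fin.h g =
    if IsLive C L Y ∧ ShownH L X Z g then b (hi L Y) g else false := by
  simp only [child, Nat.mod_eq_of_lt hX, Nat.mod_eq_of_lt hY]

lemma child_vb (hX : X < H L) (hY : Y < H L) (g : Guest) : (child L τ b X Y Z).fin.vb g =
    if IsBundle L X ∧ lo L X / 2 ≤ lastK C L ∧ ShownV L Y Z g then b (lo L X / 2) g else false := by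
  simp only [child, Nat.mod_eq_of_lt hX, Nat.mod_eq_of_lt hY]

lemma child_carry (hX : X < H L) (hY : Y < H L) : (child L τ b X Y Z).fin.carry =
    if IsCol L X 3 ∧ lo L X = 0 ∧ M L ≤ Y ∧ AF C ≤ rowIdx L Y ∧ rowIdx L Y ≤ lastK C L ∧
      MidDigits Z
    then some (scan C L b (rowIdx L Y)) else none := by
  simp only [child, Nat.mod_eq_of_lt hX, Nat.mod_eq_of_lt hY]

lemma child_eqf (hX : X < H L) (hY : Y < H L) : (child L τ b X Y Z).fin.eq =
    if IsZone C L X 4 ∧ M L ≤ Y ∧ rowsBelow L Y ≤ A C - 1 ∧ MidDigits Z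
    then some (decide (∀ k' < rowsBelow L Y, zoneMatch L X k' b = true)) else none := by
  simp only [child, Nat.mod_eq_of_lt hX, Nat.mod_eq_of_lt hY]

lemma child_v (hX : X < H L) (hY : Y < H L) : (child L τ b X Y Z).fin.v =
    if (IsZone C L X 4 ∧ A C - 1 ≤ hi L Y) ∨ IsZone C L X 6 then τ (lo L X) else false := by
  simp only [child, Nat.mod_eq_of_lt hX, Nat.mod_eq_of_lt hY]

lemma child_look (hX : X < H L) (hY : Y < H L) : (child L τ b X Y Z).fin.look =
    if IsZone C L X 6 ∧ M L ≤ Y ∧ rowsBelow L Y ≤ xlRow C (B C - 1) ∧ MidDigits Z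
    then some (lookAt C L X (rowsBelow L Y) b) else none := by
  simp only [child, Nat.mod_eq_of_lt hX, Nat.mod_eq_of_lt hY]

lemma child_live (hY : Y < H L) :
    (child L τ b X Y Z).fin.live = decide (IsLive C L Y) := by
  simp only [child, Nat.mod_eq_of_lt hY]

lemma claims_z : (claims L (child L τ b X Y Z)).ex.z = Z := rfl

lemma claims_middle : (claims L (child L τ b X Y Z)).middle = true ↔ MidDigits Z := by
  rw [Claims.middle, claims_z, decide_eq_true_iff]

lemma claims_yhC (hY : Y < H L) :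
    (claims L (child L τ b X Y Z)).cy.yhC.val = min (hi L Y) (YB C) := by
  simp only [claims, child_y τ b X Y Z hY]

lemma claims_yhMod (hY : Y < H L) :
    (claims L (child L τ b X Y Z)).cy.yhMod.val = hi L Y % T C := by
  simp only [claims, child_y τ b X Y Z hY]

lemma claims_y0 (hY : Y < H L) : (claims L (child L τ b X Y Z)).isY0 = true ↔ Y = 0 := by
  rw [y_eq_zero_iff L]
  simp only [Claims.isY0, Bool.and_eq_true, decide_eq_true_iff, and_assoc, claims, child_y τ b X Y Z hY]
  have := A_lt_YB C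
  refine and_congr Iff.rfl (and_congr ?_ ?_) <;> constructor <;> intro h' <;> omega

lemma claims_wire (hY : Y < H L) :
    (claims L (child L τ b X Y Z)).isWire = true ↔ IsWire L Y := by
  simp only [Claims.isWire, Bool.and_eq_true, decide_eq_true_iff, IsWire, claims,
    child_y τ b X Y Z hY]
  refine and_congr Iff.rfl ?_
  constructor <;> intro h <;> omega

lemma claims_halfRow (hY : Y < H L) : (claims L (child L τ b X Y Z)).halfRow = true ↔
    lo L Y = 0 ∧ mid L Y = 2 ∧ hi L Y = M L / 2 := by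
  simp only [Claims.halfRow, Bool.and_eq_true, decide_eq_true_iff, and_assoc, claims,
    child_y τ b X Y Z hY]
  refine and_congr Iff.rfl (and_congr ?_ Iff.rfl)
  constructor <;> intro h <;> omega

lemma claims_col0 (hX : X < H L) {m : ℕ} (hm : m ≤ 7) :
    ((claims L (child L τ b X Y Z)).cx.xh0 && (claims L (child L τ b X Y Z)).cx.xl0 &&
      decide ((claims L (child L τ b X Y Z)).cx.xmC.val = m)) = true ↔
      IsCol L X m ∧ lo L X = 0 := by
  simp only [claims, child_x τ b X Y Z hX, Bool.and_eq_true, decide_eq_true_iff, IsCol]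
  constructor
  · rintro ⟨⟨h1, h2⟩, h3⟩
    exact ⟨⟨h1, by omega⟩, h2⟩
  · rintro ⟨⟨h1, h2⟩, h3⟩
    exact ⟨⟨h1, h3⟩, by omega⟩

lemma claims_x0 (hX : X < H L) : (claims L (child L τ b X Y Z)).x0 = true ↔ X = 0 := by
  rw [Claims.x0, claims_col0 τ b X Y Z hX (by norm_num), y_eq_zero_iff L X]
  unfold IsCol
  tauto

lemma claims_cut (hL : L₀ C ≤ L) (hX : X < H L) :
    (claims L (child L τ b X Y Z)).cut = true ↔ X = cutX L := by
  rw [Claims.cut, claims_col0 τ b X Y Z hX (by norm_num), cut_iff hL]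

lemma claims_scan (hX : X < H L) : (claims L (child L τ b X Y Z)).isScan = true ↔
    IsCol L X 3 ∧ lo L X = 0 := by
  rw [Claims.isScan, claims_col0 τ b X Y Z hX (by norm_num)]

lemma claims_bundle (hX : X < H L) :
    (claims L (child L τ b X Y Z)).bundle = true ↔ IsBundle L X := by
  simp only [Claims.bundle, IsBundle, IsCol, Bool.and_eq_true, decide_eq_true_iff, claims,
    child_x τ b X Y Z hX]
  constructor
  · rintro ⟨⟨h1, h2⟩, h3⟩
    exact ⟨⟨h1, by omega⟩, h2⟩
  · rintro ⟨⟨h1, h2⟩, h3⟩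
    exact ⟨⟨h1, h3⟩, by omega⟩

lemma claims_zoneAt (hX : X < H L) {m : ℕ} (hm : m ≤ 7) :
    (claims L (child L τ b X Y Z)).zoneAt m = true ↔ IsZone C L X m := by
  simp only [Claims.zoneAt, IsZone, IsCol, Bool.and_eq_true, decide_eq_true_iff, claims,
    child_x τ b X Y Z hX]
  constructor
  · rintro ⟨⟨⟨h1, -⟩, h3⟩, h4⟩
    exact ⟨⟨h1, by omega⟩, h3⟩
  · rintro ⟨⟨h1, h2⟩, h3⟩
    exact ⟨⟨⟨h1, by omega⟩, h3⟩, by omega⟩

lemma claims_zone (hX : X < H L) (hY : Y < H L) : (claims L (child L τ b X Y Z)).zone = true ↔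
    (IsZone C L X 4 ∧ A C - 1 ≤ hi L Y) ∨ IsZone C L X 6 := by
  rw [Claims.zone, Bool.or_eq_true, Bool.and_eq_true, decide_eq_true_iff,
    claims_zoneAt τ b X Y Z hX (by norm_num), claims_zoneAt τ b X Y Z hX (by norm_num),
    claims_yhC τ b X Y Z hY]
  have := A_lt_YB C
  refine or_congr (and_congr Iff.rfl ?_) Iff.rfl
  omega

lemma claims_diag (hX : X < H L) (hY : Y < H L) :
    (claims L (child L τ b X Y Z)).cm.diag = true ↔ lo L X = 2 * hi L Y := by
  simp only [claims, child_x τ b X Y Z hX, child_y τ b X Y Z hY, decide_eq_true_iff]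

/-- The first position on an axis. -/
lemma claims_first (hX : X < H L) (hY : Y < H L) (a : Fin 5) :
    (claims L (child L τ b X Y Z)).firstAt a = true ↔ atFirst X Y Z a = true := by
  fin_cases a <;>
    simp [Claims.firstAt, atFirst, claims_x0 τ b X Y Z hX, claims_y0 τ b X Y Z hY, claims_z] <;>
    exact decide_eq_true_iff

lemma child_u_scan (hX : X < H L) (hY : Y < H L) (hs : IsCol L X 3 ∧ lo L X = 0) (hM : M L ≤ Y)
    (hA : A C ≤ rowIdx L Y) :
    (child L τ b X Y Z).u = 2 ^ ((rowIdx L Y - A C) / T C) % M L := by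
  rw [child_u τ b X Y Z hX hY, if_pos ⟨hs.1, hs.2, hM, hA⟩]

/-- Whether the counter is zero on the scanning column. -/
lemma claims_u0 (hX : X < H L) (hY : Y < H L) (hs : IsCol L X 3 ∧ lo L X = 0) (hM : M L ≤ Y)
    (hA : A C ≤ rowIdx L Y) :
    (claims L (child L τ b X Y Z)).cm.u0 = decide (L ≤ (rowIdx L Y - A C) / T C) := by
  simp only [claims, child_u_scan τ b X Y Z hX hY hs hM hA,
    decide_eq_decide]
  generalize (rowIdx L Y - A C) / T C = i
  unfold M
  constructor
  · intro h
    by_contra hc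
    rw [Nat.mod_eq_of_lt (Nat.pow_lt_pow_right (by norm_num) (by omega))] at h
    exact absurd h (Nat.pow_pos (by norm_num)).ne'
  · exact fun h => Nat.mod_eq_zero_of_dvd (pow_dvd_pow 2 h)

/-- On the scanning column the counter is the power of two of the index. -/
lemma claims_mach (hX : X < H L) (hY : Y < H L) (hs : IsCol L X 3 ∧ lo L X = 0) (hM : M L ≤ Y)
    (hA : A C ≤ rowIdx L Y) :
    (claims L (child L τ b X Y Z)).ex.mach = scanMach C L ((rowIdx L Y - A C) / T C) := by
  simp only [claims, child_u_scan τ b X Y Z hX hY hs hM hA, scanMach]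
  generalize (rowIdx L Y - A C) / T C = i
  unfold M
  by_cases hi : i < L
  · rw [if_pos hi, Nat.mod_eq_of_lt (Nat.pow_lt_pow_right (by norm_num) hi),
      if_neg (Nat.pow_pos (by norm_num)).ne', Nat.log_pow (by norm_num)]
  · rw [if_neg hi, if_pos (Nat.mod_eq_zero_of_dvd (pow_dvd_pow 2 (by omega)))]

/-- The bit of the word at the index of the counter. -/
lemma claims_wd (hX : X < H L) (hY : Y < H L) (hs : IsCol L X 3 ∧ lo L X = 0) (hM : M L ≤ Y)
    (hA : A C ≤ rowIdx L Y) (hi : (rowIdx L Y - A C) / T C < L) (r : Track C) :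
    (claims L (child L τ b X Y Z)).ex.wd r =
      (childWord L b Z r).testBit ((rowIdx L Y - A C) / T C) := by
  simp only [claims, child_u_scan τ b X Y Z hX hY hs hM hA, child_w, M]
  rw [Nat.mod_eq_of_lt (Nat.pow_lt_pow_right (by norm_num) hi), Nat.log_pow (by norm_num)]
  simp

end

/-- A bit of a sum of distinct powers of two. -/
lemma testBit_sum (s : Finset ℕ) (f : ℕ → Bool) (i : ℕ) :
    (∑ j ∈ s, if f j then 2 ^ j else 0).testBit i = (decide (i ∈ s) && f i) := by
  have e : (∑ j ∈ s, if f j then 2 ^ j else 0) = ∑ j ∈ s.filter (fun j => f j = true), 2 ^ j := by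
    rw [Finset.sum_filter]
  rw [e, Bool.eq_iff_iff, ← Nat.mem_bitIndices, ← List.mem_toFinset,
    Finset.toFinset_bitIndices_sum_two_pow]
  simp

end Vale.Agent.P193.W4.Common
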