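import Vale.Agent.P193.W4.Common.Facts.Steps
import Vale.Agent.P193.W4.Common.Facts.Bits

/-!
P193, module W4.A (common layer): the columns of a child and the child below it.
-/

noncomputable section

namespace Vale.Agent.P193.W4.Common

variable {C : Cfg} {L : ℕ} {τ : ℕ → Bool} {b b' : ℕ → Bits} {X Y : ℕ} {Z : Digits C}

/-- Either the bottom row, or the row after the row below. -/
lemma row_cases (hY : Y < H L) (hb : EBits (decide (Y = 0)) 1 b b') :
    (Y = 0 ∧ pred' L Y = H L - 1) ∨
      ∃ y, pred' L Y = y ∧ Y = y + 1 ∧ b' = b := by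
  rcases pred_cases hY with ⟨h1, h2⟩ | ⟨h1, h2⟩
  · exact Or.inl ⟨h1, h2⟩
  · refine Or.inr ⟨_, rfl, h2.symm, ?_⟩
    rw [EBits, if_neg (by simp; omega)] at hb
    exact hb

/-- Bits shown inside the band on a wire row in use. -/
lemma band_h (hL : L₀ C ≤ L) (τ : ℕ → Bool) (b : ℕ → Bits) (hX : X < H L) (hY : Y < H L)
    {m : ℕ} (hc : IsCol L X m) (h1 : 1 ≤ m) (h7 : m < 7) (hl : IsLive C L Y) (hz : MidDigits Z) :
    (child L τ b X Y Z).fin.h = b (hi L Y) := by
  funext g
  rw [child_h τ b X Y Z hX hY, if_pos]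
  obtain ⟨h0, h2⟩ := col_range hL hc h1 h7
  refine ⟨hl, fun h => by omega, fun h => by omega, fun i => ?_⟩
  have := hz i
  exact ⟨fun h => by omega, fun h => by omega⟩

lemma childV_carry (hL : L₀ C ≤ L) (hX : X < H L) (hY : Y < H L)
    (hb : EBits (decide (Y = 0)) 1 b b') :
    (child L τ b X Y Z).fin.carry = carryNext (claims L (child L τ b X Y Z))
      (claims L (child L τ b' X (pred' L Y) Z)) (child L τ b' X (pred' L Y) Z).fin.carry
      (child L τ b X Y Z).fin.h := by
  have hY' := pred'_lt L Y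
  unfold carryNext
  by_cases hs : ((claims L (child L τ b X Y Z)).isScan &&
      (claims L (child L τ b X Y Z)).middle) = true
  swap
  · rw [if_neg hs, child_carry τ b X Y Z hX hY, if_neg]
    intro h
    refine hs ?_
    rw [Bool.and_eq_true, claims_scan τ b X Y Z hX, claims_middle τ b X Y Z]
    exact ⟨⟨h.1, h.2.1⟩, h.2.2.2.2.2⟩
  rw [if_pos hs]
  rw [Bool.and_eq_true, claims_scan τ b X Y Z hX, claims_middle τ b X Y Z] at hs
  obtain ⟨hs, hmid⟩ := hs
  obtain ⟨hn0, -, -, hrow, -, -, hM0⟩ := rows_zero (C := C) hL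
  rcases row_cases hY hb with ⟨h1, h2⟩ | ⟨y, h2, h1, hbb⟩
  · rw [child_carry τ b X Y Z hX hY, if_neg fun h => hM0 (h1 ▸ h.2.2.1),
      if_neg fun h => by rw [claims_wire τ b X Y Z hY, h1] at h; exact hn0 h,
      if_pos ((claims_y0 τ b X Y Z hY).2 h1)]
  subst hbb
  subst h1
  rw [h2]
  have hy : y < H L := by omega
  obtain ⟨-, hr1, hr2, hr3⟩ := rows_succ hL y
  by_cases hw : IsWire L (y + 1)
  swap
  · rw [if_neg fun h => by rw [claims_wire τ b' X _ Z hY] at h; exact hw h,
      if_neg fun h => by rw [claims_y0 τ b' X _ Z hY] at h; omega,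
      child_carry τ b' X _ Z hX hY, child_carry τ b' X _ Z hX hy]
    by_cases hwy : IsWire L y
    · obtain ⟨e1, -, e3, e4, -⟩ := hr1 hwy
      simp only [e1, e4, e3, show M L ≤ y + 1 by omega]
    · obtain ⟨-, e2, e3⟩ := hr3 hwy hw
      simp only [e2, e3]
  rw [if_pos ((claims_wire τ b' X _ Z hY).2 hw)]
  obtain ⟨-, e, h0k, hpk⟩ := hr2 hw
  simp only [claims_yhC τ b' X _ Z hY, claims_yhMod τ b' X _ Z hY]
  set k := hi L (y + 1) with hk
  have hMy : M L ≤ y + 1 := M_le_of_wire hw
  have hA := A_ge C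
  have hF := AF_lt C
  have hYB := A_lt_YB C
  have hT := T_pos C
  have hh : k ≤ lastK C L → (child L τ b' X (y + 1) Z).fin.h = b' k := fun hkl =>
    band_h hL τ b' hX hY hs.1 (by norm_num) (by norm_num) ⟨hw, hkl⟩ hmid
  by_cases hk1 : k < AF C
  · rw [if_pos (by omega), child_carry τ b' X _ Z hX hY, if_neg]
    rw [e]
    omega
  rw [if_neg (by omega)]
  by_cases hk2 : k = AF C
  · rw [if_pos (by omega), child_carry τ b' X _ Z hX hY,
      if_pos ⟨hs.1, hs.2, by omega, by rw [e]; omega, by rw [e]; unfold lastK; omega, hmid⟩,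
      e, hh (by unfold lastK; omega), hk2, ← scan_AF]
  rw [if_neg (by omega)]
  obtain ⟨hMy', ek⟩ := hpk (by omega)
  have hu := fun h => claims_u0 τ b' X (y + 1) Z hX hY hs hMy h
  have hu' := fun h => claims_u0 τ b' X y Z hX hy hs hMy' h
  rw [e] at hu
  have hkT : A C ≤ k → ((k - A C) % T C = k % T C) := mod_T_sub
  have hend : endPhase (claims L (child L τ b' X (y + 1) Z)) (claims L (child L τ b' X y Z)) = true ↔
      k % T C = 0 ∧ A C < k ∧ L < (k - A C) / T C := by
    simp only [endPhase, Bool.and_eq_true, decide_eq_true_iff, claims_yhC τ b' X _ Z hY,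
      claims_yhMod τ b' X _ Z hY, ← hk, and_assoc]
    have key : A C < k → k % T C = 0 → (rowIdx L y - A C) / T C + 1 = (k - A C) / T C := by
      intro h1 h2
      obtain ⟨q, hq⟩ := Nat.dvd_of_mod_eq_zero ((hkT h1.le).trans h2)
      obtain ⟨q', rfl⟩ : ∃ q', q = q' + 1 := ⟨q - 1, by
        rcases Nat.eq_zero_or_pos q with h | h
        · subst h; simp at hq; omega
        · omega⟩
      rw [show rowIdx L y - A C = (T C - 1) + T C * q' by rw [Nat.mul_add] at hq; omega,
        Nat.add_mul_div_left _ _ hT, Nat.div_eq_of_lt (by omega), hq,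
        Nat.mul_div_cancel_left _ hT, Nat.zero_add]
    constructor
    · rintro ⟨a, c, d, e'⟩
      rw [hu (by omega), decide_eq_true_iff] at d
      rw [hu' (by omega), decide_eq_true_iff] at e'
      have := key (by omega) a
      omega
    · rintro ⟨a, c, d⟩
      have := key c a
      rw [hu (by omega), hu' (by omega), decide_eq_true_iff, decide_eq_true_iff]
      omega
  by_cases hE : k % T C = 0 ∧ A C < k ∧ L < (k - A C) / T C
  · rw [if_pos (hend.2 hE), child_carry τ b' X _ Z hX hY, if_neg]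
    rw [e]
    rintro ⟨-, -, -, -, hl, -⟩
    have h3 : T C * (L + 1) ≤ T C * ((k - A C) / T C) := Nat.mul_le_mul_left _ hE.2.2
    have h4 := Nat.mul_div_le (k - A C) (T C)
    rw [Nat.mul_add] at h3
    unfold lastK at hl
    omega
  rw [if_neg fun h => hE (hend.1 h), child_carry τ b' X _ Z hX hY, child_carry τ b' X _ Z hX hy, e]
  by_cases hl : k ≤ lastK C L
  · rw [if_pos ⟨hs.1, hs.2, hMy, by omega, hl, hmid⟩,
      if_pos ⟨hs.1, hs.2, hMy', by omega, by omega, hmid⟩, Option.map_some, hh hl]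
    have hd : A C ≤ rowIdx L y + 1 → (claims L (child L τ b' X (y + 1) Z)).ex.mach =
        scanMach C L ((rowIdx L y + 1 - A C) / T C) := by
      intro h
      rw [claims_mach τ b' X (y + 1) Z hX hY hs hMy (by omega), e, ek]
    have := scan_succ b' (rowIdx L y) _ hd
    rw [ek] at this
    rw [this]
  · rw [if_neg fun h => hl h.2.2.2.2.1, if_neg, Option.map_none]
    rintro ⟨-, -, -, -, hl', -⟩
    apply hE
    have hk3 : k = A C + T C * (L + 1) := by
      unfold lastK at hl hl'
      rw [Nat.mul_add]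
      omega
    have hk4 : k - A C = T C * (L + 1) := by omega
    have hpos : T C * 1 ≤ T C * (L + 1) := Nat.mul_le_mul_left _ (by omega)
    refine ⟨?_, by omega, ?_⟩
    · rw [← hkT (by omega), hk4, Nat.mul_mod_right]
    · rw [hk4, Nat.mul_div_cancel_left _ hT]
      omega

lemma childV_eq (hL : L₀ C ≤ L) (hX : X < H L) (hY : Y < H L)
    (hb : EBits (decide (Y = 0)) 1 b b') :
    (child L τ b X Y Z).fin.eq = eqNext (claims L (child L τ b X Y Z))
      (claims L (child L τ b' X (pred' L Y) Z)) (child L τ b' X (pred' L Y) Z).fin.eq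
      (child L τ b' X (pred' L Y) Z).fin.h := by
  unfold eqNext
  by_cases hs : ((claims L (child L τ b X Y Z)).zoneAt 4 &&
      (claims L (child L τ b X Y Z)).middle) = true
  swap
  · rw [if_neg hs, child_eqf τ b X Y Z hX hY, if_neg]
    intro h
    refine hs ?_
    rw [Bool.and_eq_true, claims_zoneAt τ b X Y Z hX (by norm_num), claims_middle τ b X Y Z]
    exact ⟨h.1, h.2.2.2⟩
  rw [if_pos hs]
  rw [Bool.and_eq_true, claims_zoneAt τ b X Y Z hX (by norm_num),
    claims_middle τ b X Y Z] at hs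
  obtain ⟨hs, hmid⟩ := hs
  obtain ⟨hn0, -, -, -, -, -, hM0⟩ := rows_zero (C := C) hL
  have hA := A_ge C
  have hYB := A_lt_YB C
  rcases row_cases hY hb with ⟨h1, h2⟩ | ⟨y, h2, h1, hbb⟩
  · rw [child_eqf τ b X Y Z hX hY, if_neg fun h => hM0 (h1 ▸ h.2.1),
      if_pos ((claims_y0 τ b X Y Z hY).2 h1)]
  subst hbb
  subst h1
  rw [h2]
  have hy : y < H L := by omega
  rw [if_neg fun h => by rw [claims_y0 τ b' X _ Z hY] at h; omega]
  obtain ⟨hww, hr1, hr2, hr3⟩ := rows_succ hL y
  by_cases hw : IsWire L (y + 1)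
  · obtain ⟨e, ei, h0k, hpk⟩ := hr2 hw
    have hwy : ¬ IsWire L y := fun h => hww h hw
    by_cases hk : hi L (y + 1) = 0
    · rw [if_pos (by
        rw [Bool.and_eq_true, decide_eq_true_iff, claims_wire τ b' X _ Z hY,
          claims_yhC τ b' X _ Z hY, hk]
        exact ⟨hw, by omega⟩)]
      have hlt := h0k hk
      have e0 : rowsBelow L (y + 1) = 0 := by rw [e, rowsBelow, if_pos hlt]
      rw [child_eqf τ b' X _ Z hX hY, if_pos ⟨hs, M_le_of_wire hw, by omega, hmid⟩, e0]
      simp
    · rw [if_neg fun h => by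
        rw [Bool.and_eq_true, decide_eq_true_iff, claims_yhC τ b' X _ Z hY] at h
        omega, if_neg fun h => by rw [claims_wire τ b' X _ Z hy] at h; exact hwy h,
        child_eqf τ b' X _ Z hX hY, child_eqf τ b' X _ Z hX hy, e]
      have := (hpk (by omega)).1
      simp only [this, show M L ≤ y + 1 by omega]
  rw [if_neg fun h => by
    rw [Bool.and_eq_true, decide_eq_true_iff, claims_wire τ b' X _ Z hY] at h
    exact hw h.1]
  by_cases hwy : IsWire L y
  swap
  · obtain ⟨e, e2, -⟩ := hr3 hwy hw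
    rw [if_neg fun h => by rw [claims_wire τ b' X _ Z hy] at h; exact hwy h,
      child_eqf τ b' X _ Z hX hY, child_eqf τ b' X _ Z hX hy, e]
    simp only [e2]
  obtain ⟨-, er, hM, -, er'⟩ := hr1 hwy
  rw [if_pos ((claims_wire τ b' X _ Z hy).2 hwy), claims_yhC τ b' X _ Z hy]
  by_cases hk : hi L y < A C - 1
  swap
  · rw [if_neg (by omega), child_eqf τ b' X _ Z hX hY, if_neg]
    rw [er']
    omega
  rw [if_pos (by omega), child_eqf τ b' X _ Z hX hY, child_eqf τ b' X _ Z hX hy, er', er,
    if_pos ⟨hs, by omega, by omega, hmid⟩, if_pos ⟨hs, hM, by omega, hmid⟩, Option.map_some,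
    eq_step]
  refine congrArg some (congrArg (_ && ·) ?_)
  have hh := band_h hL τ b' hX hy hs.1 (by norm_num) (by norm_num)
    ⟨hwy, by unfold lastK; omega⟩ hmid
  rw [zoneMatch_iff (C := C) (by omega) b' _ hh]
  have hq : (claims L (child L τ b' X y Z)).cm.q = fun g : Guest =>
      decide (min (hi L y) (YB C) < A C) &&
        (lo L X).testBit (32 * min (hi L y) (YB C) + (gidx g).val + 2) := by
    simp only [claims, child_x τ b' X y Z hX, child_y τ b' X y Z hy]
  rw [hq]

lemma childV_look (hL : L₀ C ≤ L) (hX : X < H L) (hY : Y < H L)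
    (hb : EBits (decide (Y = 0)) 1 b b') :
    (child L τ b X Y Z).fin.look = lookNext (claims L (child L τ b X Y Z))
      (claims L (child L τ b' X (pred' L Y) Z)) (child L τ b' X (pred' L Y) Z).fin.look
      (child L τ b' X (pred' L Y) Z).fin.h := by
  unfold lookNext
  by_cases hs : ((claims L (child L τ b X Y Z)).zoneAt 6 &&
      (claims L (child L τ b X Y Z)).middle) = true
  swap
  · rw [if_neg hs, child_look τ b X Y Z hX hY, if_neg]
    intro h
    refine hs ?_
    rw [Bool.and_eq_true, claims_zoneAt τ b X Y Z hX (by norm_num), claims_middle τ b X Y Z]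
    exact ⟨h.1, h.2.2.2⟩
  rw [if_pos hs]
  rw [Bool.and_eq_true, claims_zoneAt τ b X Y Z hX (by norm_num),
    claims_middle τ b X Y Z] at hs
  obtain ⟨hs, hmid⟩ := hs
  obtain ⟨hn0, -, -, -, -, -, hM0⟩ := rows_zero (C := C) hL
  have hA := A_ge C
  have hYB : xlRow C (B C - 1) < YB C := by
    have : T C * (B C - 1) < T C * (B C + 2) := Nat.mul_lt_mul_of_pos_left (by omega) (T_pos C)
    unfold YB xlRow
    omega
  rcases row_cases hY hb with ⟨h1, h2⟩ | ⟨y, h2, h1, hbb⟩
  · rw [child_look τ b X Y Z hX hY, if_neg fun h => hM0 (h1 ▸ h.2.1),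
      if_pos ((claims_y0 τ b X Y Z hY).2 h1)]
  subst hbb
  subst h1
  rw [h2]
  have hy : y < H L := by omega
  rw [if_neg fun h => by rw [claims_y0 τ b' X _ Z hY] at h; omega]
  obtain ⟨hww, hr1, hr2, hr3⟩ := rows_succ hL y
  by_cases hw : IsWire L (y + 1)
  · obtain ⟨e, ei, h0k, hpk⟩ := hr2 hw
    have hwy : ¬ IsWire L y := fun h => hww h hw
    by_cases hk : hi L (y + 1) = 0
    · rw [if_pos (by
        rw [Bool.and_eq_true, decide_eq_true_iff, claims_wire τ b' X _ Z hY,
          claims_yhC τ b' X _ Z hY, hk]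
        exact ⟨hw, by omega⟩)]
      have hlt := h0k hk
      have e0 : rowsBelow L (y + 1) = 0 := by rw [e, rowsBelow, if_pos hlt]
      rw [child_look τ b' X _ Z hX hY, if_pos ⟨hs, M_le_of_wire hw, by omega, hmid⟩, e0,
        lookAt_zero]
    · rw [if_neg fun h => by
        rw [Bool.and_eq_true, decide_eq_true_iff, claims_yhC τ b' X _ Z hY] at h
        omega, if_neg fun h => by rw [claims_wire τ b' X _ Z hy] at h; exact hwy h,
        child_look τ b' X _ Z hX hY, child_look τ b' X _ Z hX hy, e]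
      have := (hpk (by omega)).1
      simp only [this, show M L ≤ y + 1 by omega]
  rw [if_neg fun h => by
    rw [Bool.and_eq_true, decide_eq_true_iff, claims_wire τ b' X _ Z hY] at h
    exact hw h.1]
  by_cases hwy : IsWire L y
  swap
  · obtain ⟨e, e2, -⟩ := hr3 hwy hw
    rw [if_neg fun h => by rw [claims_wire τ b' X _ Z hy] at h; exact hwy h,
      child_look τ b' X _ Z hX hY, child_look τ b' X _ Z hX hy, e]
    simp only [e2]
  obtain ⟨-, er, hM, -, er'⟩ := hr1 hwy
  rw [if_pos ((claims_wire τ b' X _ Z hy).2 hwy), claims_yhC τ b' X _ Z hy]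
  by_cases hk : hi L y < xlRow C (B C - 1)
  swap
  · rw [if_neg (by omega), child_look τ b' X _ Z hX hY, if_neg]
    rw [er']
    omega
  rw [if_pos (by omega), child_look τ b' X _ Z hX hY, child_look τ b' X _ Z hX hy, er', er,
    if_pos ⟨hs, by omega, by omega, hmid⟩, if_pos ⟨hs, hM, by omega, hmid⟩, Option.map_some,
    lookAt_succ hk]
  have hkl : hi L y ≤ lastK C L := by
    have h0 := (le_L₀ C).trans hL
    have : T C * (B C - 1) ≤ T C * L := Nat.mul_le_mul_left _ (by omega)
    unfold lastK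
    unfold xlRow at hk
    omega
  have hh := band_h hL τ b' hX hy hs.1 (by norm_num) (by norm_num) ⟨hwy, hkl⟩ hmid
  have hq : (claims L (child L τ b' X y Z)).cm.ql =
      (decide (A C ≤ min (hi L y) (YB C)) && decide (lidx C (min (hi L y) (YB C)) < B C) &&
        (lo L X).testBit (lidx C (min (hi L y) (YB C)))) := by
    simp only [claims, child_x τ b' X y Z hX, child_y τ b' X y Z hy]
  rw [hh, hq, claims_yhMod τ b' X _ Z hy]

end Vale.Agent.P193.W4.Common
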